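import Vale.Agent.Lib.P047.Fourier

open Finset BigOperators

/-!
P047 Low, module L4: facts on `B_d = E |x_1 + ... + x_d|`, written out as in the problem.
ROUTE. bd_reindex: both sides are avg of `|∑ sg|`; transport along any equivalence
`e : Fin (2*k) ⊕ Fin 5 ≃ Fin (2*k+5)` (`finSumFinEquiv`): `Fintype.sum_equiv (Equiv.arrowCongr e (Equiv.refl _))`
for the outer sum, `Fintype.sum_equiv e` (or `Equiv.sum_comp`) for the inner one, and
`Fintype.card_sum, Fintype.card_fin` for the power of two.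
bd_succ_of_odd: split off the last coordinate (`Fin.consEquiv` / `Fin.snocEquiv` /
`Fin.sum_univ_succ` + `Fintype.sum_equiv (Fin.consEquiv _).symm` + `Fintype.sum_prod_type` + sum_units):
`∑_{x : Fin (d+1) → ℤˣ} |∑ x| = ∑_{x : Fin d → ℤˣ} (|1 + s x| + |-1 + s x|)`, where `s x = ∑ x i` is the cast
of an ODD integer (induction on d, or: each unit is odd, `Finset.sum` of d odd numbers with d odd;
`Int.odd_iff`, `Finset.sum_int_mod`), hence `|s| ≥ 1` and `|1 + s| + |-1 + s| = 2 |s|`.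
bd_four: finite computation (cast to an integer sum, `decide`).
-/

namespace Vale.Agent.Lib.P047.Low

lemma bd_reindex (k : ℕ) :
    avg (fun y : Fin (2 * k) ⊕ Fin 5 → ℤˣ => |∑ a, sg (y a)|)
      = (∑ x : Fin (2 * k + 5) → ℤˣ, |∑ i, ((x i : ℤ) : ℝ)|) / 2 ^ (2 * k + 5) := by
  unfold avg
  rw [Fintype.card_sum, Fintype.card_fin, Fintype.card_fin]
  congr 1
  refine Fintype.sum_equiv (Equiv.arrowCongr finSumFinEquiv (Equiv.refl _)) _ _ fun y => ?_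
  congr 1
  refine Fintype.sum_equiv finSumFinEquiv _ _ fun a => ?_
  simp [sg, Equiv.arrowCongr]

private lemma sum_step (d : ℕ) (g : ℝ → ℝ) :
    ∑ x : Fin (d + 1) → ℤˣ, g (∑ i, ((x i : ℤ) : ℝ))
      = ∑ x : Fin d → ℤˣ, (g (1 + ∑ i, ((x i : ℤ) : ℝ)) + g (-1 + ∑ i, ((x i : ℤ) : ℝ))) := by
  have h1 : ∑ x : Fin (d + 1) → ℤˣ, g (∑ i, ((x i : ℤ) : ℝ))
      = ∑ p : ℤˣ × (Fin d → ℤˣ), g (((p.1 : ℤ) : ℝ) + ∑ i, ((p.2 i : ℤ) : ℝ)) := by
    refine (Fintype.sum_equiv (Fin.consEquiv (fun _ => ℤˣ)) _ _ fun p => ?_).symm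
    rw [Fin.sum_univ_succ]
    simp [Fin.consEquiv]
  rw [h1, Fintype.sum_prod_type, sum_units, ← Finset.sum_add_distrib]
  simp

private lemma two_dvd (d : ℕ) (x : Fin d → ℤˣ) : (2 : ℤ) ∣ (∑ i, (x i : ℤ)) - d := by
  have : (∑ i, (x i : ℤ)) - d = ∑ i, ((x i : ℤ) - 1) := by
    simp [Finset.sum_sub_distrib]
  rw [this]
  refine Finset.dvd_sum fun i _ => ?_
  rcases Int.units_eq_one_or (x i) with h | h <;> simp [h]

lemma bd_succ_of_odd (d : ℕ) (hd : Odd d) :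
    (∑ x : Fin (d + 1) → ℤˣ, |∑ i, ((x i : ℤ) : ℝ)|) / 2 ^ (d + 1)
      = (∑ x : Fin d → ℤˣ, |∑ i, ((x i : ℤ) : ℝ)|) / 2 ^ d := by
  rw [sum_step d (fun s => |s|)]
  have h2 : ∀ x : Fin d → ℤˣ, |1 + ∑ i, ((x i : ℤ) : ℝ)| + |-1 + ∑ i, ((x i : ℤ) : ℝ)|
      = 2 * |∑ i, ((x i : ℤ) : ℝ)| := by
    intro x
    obtain ⟨c, hc⟩ := two_dvd d x
    obtain ⟨m, hm⟩ := hd
    have hS : (1 : ℤ) ≤ ∑ i, (x i : ℤ) ∨ ∑ i, (x i : ℤ) ≤ -1 := by
      omega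
    have hcast : ∑ i, ((x i : ℤ) : ℝ) = ((∑ i, (x i : ℤ) : ℤ) : ℝ) := by
      push_cast
      rfl
    rw [hcast]
    set S : ℤ := ∑ i, (x i : ℤ)
    rcases hS with h | h
    · have h' : (1 : ℝ) ≤ (S : ℝ) := by exact_mod_cast h
      rw [abs_of_nonneg (by linarith), abs_of_nonneg (by linarith), abs_of_nonneg (by linarith)]
      ring
    · have h' : (S : ℝ) ≤ -1 := by exact_mod_cast h
      rw [abs_of_nonpos (by linarith), abs_of_nonpos (by linarith), abs_of_nonpos (by linarith)]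
      ring
  rw [Finset.sum_congr rfl (fun x _ => h2 x), ← Finset.mul_sum, pow_succ]
  field_simp

lemma bd_four : (∑ x : Fin 4 → ℤˣ, |∑ i, ((x i : ℤ) : ℝ)|) / 2 ^ 4 = 3 / 2 := by
  have h : ∑ x : Fin 4 → ℤˣ, |∑ i, (x i : ℤ)| = 24 := by
    decide
  have h' : ∑ x : Fin 4 → ℤˣ, |∑ i, ((x i : ℤ) : ℝ)| = ((∑ x : Fin 4 → ℤˣ, |∑ i, (x i : ℤ)| : ℤ) : ℝ) := by
    push_cast
    rfl
  rw [h', h]
  norm_num

end Vale.Agent.Lib.P047.Low
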