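import Vale.Agent.Lib.P047.Low.SumCube

open Finset BigOperators

/-!
P047 Low, module L2: gluing. `glue p m G (y, x) = G x` if `p y`, and `m y` otherwise.
ROUTE. fc_glue: unfold fc; pointwise
`sg (glue p m G z) = (if p y then 0 else sg (m y)) * 1 + (if p y then 1 else 0) * sg (G x)`
(split on `p y`), multiply by `chi_sumType`, split the avg of the sum of two products
(avg is additive: unfold avg, sum_add_distrib, add_div) and use `avg_sumType` twice.
deg_glue: by card_sumType and `Finset.card_le_univ`, inrPart S is nonempty, so `avg_chi` kills the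
first term; for the second term either `a < (inlPart S).card` (use hp) or `b < (inrPart S).card`
(use hG). level_one_glue: `Fintype.sum_sum_type`; inlPart {inl a} = {a}, inrPart {inl a} = ∅,
inlPart {inr b} = ∅, inrPart {inr b} = {b}; chi ∅ = 1, chi {a} y = sg (y a); avg_chi.
-/

namespace Vale.Agent.Lib.P047.Low

variable {α β : Type} [Fintype α] [DecidableEq α] [Fintype β] [DecidableEq β]

/-- `G` on the right block where `p` holds on the left block, `m` of the left block elsewhere -/
def glue (p : (α → ℤˣ) → Prop) [DecidablePred p] (m : (α → ℤˣ) → ℤˣ) (G : (β → ℤˣ) → ℤˣ) :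
    (α ⊕ β → ℤˣ) → ℤˣ :=
  fun z => if p (fun a => z (Sum.inl a)) then G (fun b => z (Sum.inr b))
    else m (fun a => z (Sum.inl a))

lemma avg_add_aux {ι : Type} [Fintype ι] [DecidableEq ι] (F H : (ι → ℤˣ) → ℝ) :
    avg (fun x => F x + H x) = avg F + avg H := by
  unfold avg
  rw [Finset.sum_add_distrib, add_div]

lemma fc_glue (p : (α → ℤˣ) → Prop) [DecidablePred p] (m : (α → ℤˣ) → ℤˣ) (G : (β → ℤˣ) → ℤˣ)
    (S : Finset (α ⊕ β)) :
    fc (glue p m G) S
      = avg (fun y : α → ℤˣ => (if p y then 0 else sg (m y)) * chi (inlPart S) y)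
          * avg (chi (inrPart S))
        + avg (fun y : α → ℤˣ => (if p y then (1:ℝ) else 0) * chi (inlPart S) y)
          * fc G (inrPart S) := by
  unfold fc
  have h : (fun z : α ⊕ β → ℤˣ => sg (glue p m G z) * chi S z)
      = fun z => ((if p (fun a => z (Sum.inl a)) then 0 else sg (m (fun a => z (Sum.inl a))))
            * chi (inlPart S) (fun a => z (Sum.inl a))) * chi (inrPart S) (fun b => z (Sum.inr b))
        + ((if p (fun a => z (Sum.inl a)) then (1:ℝ) else 0)
            * chi (inlPart S) (fun a => z (Sum.inl a)))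
          * (sg (G (fun b => z (Sum.inr b))) * chi (inrPart S) (fun b => z (Sum.inr b))) := by
    funext z
    rw [chi_sumType]
    unfold glue
    split_ifs <;> ring
  rw [h, avg_add_aux,
    avg_sumType (fun y : α → ℤˣ => (if p y then 0 else sg (m y)) * chi (inlPart S) y)
      (chi (inrPart S)),
    avg_sumType (fun y : α → ℤˣ => (if p y then (1:ℝ) else 0) * chi (inlPart S) y)
      (fun x : β → ℤˣ => sg (G x) * chi (inrPart S) x)]

lemma deg_glue (p : (α → ℤˣ) → Prop) [DecidablePred p] (m : (α → ℤˣ) → ℤˣ) (G : (β → ℤˣ) → ℤˣ)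
    (a b : ℕ) (hcard : Fintype.card α ≤ a + b)
    (hp : ∀ T : Finset α, a < T.card →
      avg (fun y : α → ℤˣ => (if p y then (1:ℝ) else 0) * chi T y) = 0)
    (hG : ∀ T : Finset β, b < T.card → fc G T = 0)
    (S : Finset (α ⊕ β)) (hS : a + b < S.card) : fc (glue p m G) S = 0 := by
  rw [fc_glue]
  have hc := card_sumType S
  have hl : (inlPart S).card ≤ Fintype.card α := Finset.card_le_univ _
  have hne : inrPart S ≠ ∅ := by
    intro h
    rw [h] at hc
    simp at hc
    omega
  rw [avg_chi, if_neg hne, mul_zero, zero_add]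
  by_cases h : a < (inlPart S).card
  · rw [hp _ h, zero_mul]
  · rw [hG _ (by omega), mul_zero]

lemma level_one_glue (p : (α → ℤˣ) → Prop) [DecidablePred p] (m : (α → ℤˣ) → ℤˣ)
    (G : (β → ℤˣ) → ℤˣ) :
    ∑ i : α ⊕ β, fc (glue p m G) {i}
      = ∑ a : α, avg (fun y : α → ℤˣ => (if p y then 0 else sg (m y)) * sg (y a))
        + (∑ a : α, avg (fun y : α → ℤˣ => (if p y then (1:ℝ) else 0) * sg (y a))) * fc G ∅
        + avg (fun y : α → ℤˣ => (if p y then (1:ℝ) else 0)) * ∑ b : β, fc G {b} := by
  rw [Fintype.sum_sum_type]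
  have hl1 : ∀ a : α, inlPart ({Sum.inl a} : Finset (α ⊕ β)) = {a} := by
    intro a; ext x; simp [inlPart]
  have hr1 : ∀ a : α, inrPart ({Sum.inl a} : Finset (α ⊕ β)) = ∅ := by
    intro a; ext x; simp [inrPart]
  have hl2 : ∀ b : β, inlPart ({Sum.inr b} : Finset (α ⊕ β)) = ∅ := by
    intro b; ext x; simp [inlPart]
  have hr2 : ∀ b : β, inrPart ({Sum.inr b} : Finset (α ⊕ β)) = {b} := by
    intro b; ext x; simp [inrPart]
  have chi0 : ∀ y : α → ℤˣ, chi ∅ y = 1 := by intro y; simp [chi]
  have chi1 : ∀ (a : α) (y : α → ℤˣ), chi {a} y = sg (y a) := by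
    intro a y
    unfold chi
    simp only [Finset.mem_singleton]
    rw [Finset.prod_ite_eq' Finset.univ a (fun i => sg (y i))]
    simp
  simp_rw [fc_glue, hl1, hr1, hl2, hr2, avg_chi, chi0, chi1]
  simp only [if_true, mul_one, Finset.singleton_ne_empty, if_false, mul_zero, zero_add]
  rw [Finset.sum_add_distrib, Finset.sum_mul, Finset.mul_sum]

end Vale.Agent.Lib.P047.Low
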