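import Vale.Agent.Lib.P047.Low.SumCube

open Finset BigOperators

/-!
P047 Low, module L3: the majority block. Index type `Fin (2*k) ⊕ Fin 5`; `tie k y` says that the
first `2k` coordinates sum to zero; `mj y` is the sign of the sum of all coordinates.
ROUTE (all elementary; `avg_sumType` from SumCube is the only tool).
tie_deg: a set T with more than 2k elements has inrPart T nonempty (card_sumType, card_le_univ,
Fintype.card_fin); write the integrand with chi_sumType as (function of the left block) * (chi of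
the right block), apply avg_sumType and avg_chi.
mj_abs: move the sum inside avg (avg_sum), pointwise: if tie then 0 = 0, else
`sg (mj y) * ∑ a, sg (y a) = |∑ a, sg (y a)|` by the definition of mj (cases 0 < sum or not).
tie_lin: split ∑ a with Fintype.sum_sum_type. For a = inl j: ∑ j of the integrand is
(if tie then 1 else 0) * ∑ j sg (y (inl j)) = 0 pointwise (cast of the integer sum).
For a = inr u: avg_sumType and avg of one coordinate is 0 (avg_chi for the singleton or avg_prod).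
tie_abs: on tie the total sum is the sum over the right block; avg_sumType; and
`avg (fun u : Fin 5 → ℤˣ => |∑ i, sg (u i)|) = 15/8` (finite computation: unfold avg, rewrite the
real sum as the cast of an integer sum and use `decide`, as in DegFive.lean).
tie_pos: avg of a nonnegative function with a positive value at the point
`y (inl j) = if (j : ℕ) < k then 1 else -1`; or avoid the explicit point: pair j with its mirror
image (`Fin.rev`) and take `y (inl j) = if j < rev j then 1 else -1`.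
-/

namespace Vale.Agent.Lib.P047.Low

/-- the first `2k` coordinates sum to zero -/
def tie (k : ℕ) (y : Fin (2 * k) ⊕ Fin 5 → ℤˣ) : Prop :=
  ∑ j : Fin (2 * k), ((y (Sum.inl j) : ℤˣ) : ℤ) = 0

instance (k : ℕ) : DecidablePred (tie k) := fun y => by unfold tie; infer_instance

/-- the sign of the sum of all coordinates -/
def mj (k : ℕ) (y : Fin (2 * k) ⊕ Fin 5 → ℤˣ) : ℤˣ :=
  if 0 < ∑ a : Fin (2 * k) ⊕ Fin 5, ((y a : ℤˣ) : ℤ) then 1 else -1

private lemma ite_tie (k : ℕ) (y : Fin (2 * k) ⊕ Fin 5 → ℤˣ) (a b : ℝ) :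
    (if tie k y then a else b)
      = if ∑ j : Fin (2 * k), ((y (Sum.inl j) : ℤˣ) : ℤ) = 0 then a else b := by
  by_cases h : tie k y
  · rw [if_pos h, if_pos (show ∑ j : Fin (2 * k), ((y (Sum.inl j) : ℤˣ) : ℤ) = 0 from h)]
  · rw [if_neg h, if_neg (show ¬ ∑ j : Fin (2 * k), ((y (Sum.inl j) : ℤˣ) : ℤ) = 0 from h)]

private lemma avg_one {ι : Type} [Fintype ι] [DecidableEq ι] :
    avg (fun _ : ι → ℤˣ => (1 : ℝ)) = 1 := by
  have h := avg_chi (∅ : Finset ι)
  rw [if_pos rfl] at h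
  refine Eq.trans ?_ h
  congr 1
  funext x
  simp [chi]

private lemma avg_coord {ι : Type} [Fintype ι] [DecidableEq ι] (u : ι) :
    avg (fun b : ι → ℤˣ => sg (b u)) = 0 := by
  have h := avg_smul (-1) (fun b : ι → ℤˣ => sg (b u))
  have h2 : (fun x : ι → ℤˣ => sg (-1 * x u)) = fun x => (-1 : ℝ) * sg (x u) := by
    funext x
    rw [sg_mul, sg_neg_one]
  simp only [h2] at h
  rw [avg_mul_left] at h
  linarith

private lemma sum_sg {ι : Type} [Fintype ι] (y : ι → ℤˣ) :
    ∑ a, sg (y a) = ((∑ a, ((y a : ℤˣ) : ℤ) : ℤ) : ℝ) := by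
  push_cast
  rfl

/-- the indicator of a tie as a function of the left block -/
private noncomputable def indL (k : ℕ) (a : Fin (2 * k) → ℤˣ) : ℝ :=
  if ∑ j : Fin (2 * k), ((a j : ℤˣ) : ℤ) = 0 then 1 else 0

private lemma ind_eq (k : ℕ) (y : Fin (2 * k) ⊕ Fin 5 → ℤˣ) :
    (if tie k y then (1:ℝ) else 0) = indL k (fun j => y (Sum.inl j)) := ite_tie k y 1 0

private lemma avg_ind (k : ℕ) :
    avg (fun y : Fin (2 * k) ⊕ Fin 5 → ℤˣ => (if tie k y then (1:ℝ) else 0)) = avg (indL k) := by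
  have h := avg_sumType (α := Fin (2 * k)) (β := Fin 5) (indL k) (fun _ => (1 : ℝ))
  rw [avg_one, mul_one] at h
  refine Eq.trans ?_ h
  congr 1
  funext y
  rw [ind_eq, mul_one]

lemma tie_deg (k : ℕ) (T : Finset (Fin (2 * k) ⊕ Fin 5)) (hT : 2 * k < T.card) :
    avg (fun y : Fin (2 * k) ⊕ Fin 5 → ℤˣ => (if tie k y then (1:ℝ) else 0) * chi T y) = 0 := by
  have hne : inrPart T ≠ ∅ := by
    intro h
    have h1 := card_sumType T
    rw [h, Finset.card_empty, add_zero] at h1
    have h2 : (inlPart T).card ≤ 2 * k := by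
      have := Finset.card_le_univ (inlPart T)
      simpa using this
    omega
  have h := avg_sumType (α := Fin (2 * k)) (β := Fin 5)
    (fun a => indL k a * chi (inlPart T) a) (chi (inrPart T))
  rw [avg_chi, if_neg hne, mul_zero] at h
  refine Eq.trans ?_ h
  congr 1
  funext y
  rw [chi_sumType T y, ind_eq, mul_assoc]

lemma mj_abs (k : ℕ) :
    ∑ a : Fin (2 * k) ⊕ Fin 5,
        avg (fun y : Fin (2 * k) ⊕ Fin 5 → ℤˣ => (if tie k y then 0 else sg (mj k y)) * sg (y a))
      = avg (fun y : Fin (2 * k) ⊕ Fin 5 → ℤˣ => if tie k y then 0 else |∑ a, sg (y a)|) := by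
  rw [← avg_sum]
  congr 1
  funext y
  rw [← Finset.mul_sum]
  by_cases h : tie k y
  · rw [if_pos h, if_pos h, zero_mul]
  · rw [if_neg h, if_neg h, sum_sg]
    unfold mj
    by_cases hp : 0 < ∑ a : Fin (2 * k) ⊕ Fin 5, ((y a : ℤˣ) : ℤ)
    · rw [if_pos hp, sg_one, one_mul, abs_of_pos (by exact_mod_cast hp)]
    · rw [if_neg hp, sg_neg_one, abs_of_nonpos (by exact_mod_cast not_lt.mp hp)]
      ring

lemma tie_lin (k : ℕ) :
    ∑ a : Fin (2 * k) ⊕ Fin 5,
        avg (fun y : Fin (2 * k) ⊕ Fin 5 → ℤˣ => (if tie k y then (1:ℝ) else 0) * sg (y a)) = 0 := by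
  rw [Fintype.sum_sum_type]
  have h1 : ∑ j : Fin (2 * k), avg (fun y : Fin (2 * k) ⊕ Fin 5 → ℤˣ =>
      (if tie k y then (1:ℝ) else 0) * sg (y (Sum.inl j))) = 0 := by
    rw [← avg_sum]
    have : (fun y : Fin (2 * k) ⊕ Fin 5 → ℤˣ => ∑ j : Fin (2 * k),
        (if tie k y then (1:ℝ) else 0) * sg (y (Sum.inl j))) = fun _ => (0 : ℝ) * 1 := by
      funext y
      rw [← Finset.mul_sum]
      by_cases h : tie k y
      · have h' : ∑ j : Fin (2 * k), ((y (Sum.inl j) : ℤˣ) : ℤ) = 0 := h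
        rw [sum_sg (fun j => y (Sum.inl j)), h']
        simp
      · rw [if_neg h]
        simp
    rw [this, avg_mul_left, zero_mul]
  have h2 : ∀ u : Fin 5, avg (fun y : Fin (2 * k) ⊕ Fin 5 → ℤˣ =>
      (if tie k y then (1:ℝ) else 0) * sg (y (Sum.inr u))) = 0 := by
    intro u
    have h := avg_sumType (α := Fin (2 * k)) (β := Fin 5) (indL k) (fun b => sg (b u))
    rw [avg_coord, mul_zero] at h
    refine Eq.trans ?_ h
    simp only [ind_eq]
  rw [h1, Finset.sum_eq_zero (fun u _ => h2 u), add_zero]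

private lemma abs_five_int :
    ∑ x : Fin 5 → ℤˣ, |∑ u : Fin 5, ((x u : ℤˣ) : ℤ)| = 60 := by
  decide +kernel

private lemma avg_abs_five :
    avg (fun b : Fin 5 → ℤˣ => |∑ u, sg (b u)|) = 15 / 8 := by
  unfold avg
  have h : (∑ x : Fin 5 → ℤˣ, |∑ u, sg (x u)|)
      = ((∑ x : Fin 5 → ℤˣ, |∑ u : Fin 5, ((x u : ℤˣ) : ℤ)| : ℤ) : ℝ) := by
    push_cast
    rfl
  rw [h, abs_five_int]
  simp
  norm_num

lemma tie_abs (k : ℕ) :
    avg (fun y : Fin (2 * k) ⊕ Fin 5 → ℤˣ => if tie k y then |∑ a, sg (y a)| else 0)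
      = avg (fun y : Fin (2 * k) ⊕ Fin 5 → ℤˣ => (if tie k y then (1:ℝ) else 0)) * (15 / 8) := by
  rw [avg_ind, ← avg_abs_five, ← avg_sumType]
  congr 1
  funext y
  by_cases h : tie k y
  · have h' : ∑ j : Fin (2 * k), ((y (Sum.inl j) : ℤˣ) : ℤ) = 0 := h
    rw [if_pos h, ← ind_eq, if_pos h, one_mul, Fintype.sum_sum_type,
      sum_sg (fun j => y (Sum.inl j)), h']
    simp
  · rw [if_neg h, ← ind_eq, if_neg h, zero_mul]

private lemma alt_sum (k : ℕ) : ∑ i ∈ Finset.range (2 * k), (-1 : ℤ) ^ i = 0 := by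
  induction k with
  | zero => simp
  | succ m ih =>
    rw [show 2 * (m + 1) = 2 * m + 1 + 1 by ring, Finset.sum_range_succ, Finset.sum_range_succ, ih]
    simp [pow_succ, pow_mul]

lemma tie_pos (k : ℕ) :
    0 < avg (fun y : Fin (2 * k) ⊕ Fin 5 → ℤˣ => (if tie k y then (1:ℝ) else 0)) := by
  unfold avg
  apply div_pos _ (by positivity)
  set y0 : Fin (2 * k) ⊕ Fin 5 → ℤˣ := fun a => Sum.elim (fun j : Fin (2 * k) => (-1 : ℤˣ) ^ (j : ℕ))
    (fun _ => 1) a with hy0
  have ht : tie k y0 := by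
    unfold tie
    have h := Fin.sum_univ_eq_sum_range (fun i => (-1 : ℤ) ^ i) (2 * k)
    rw [alt_sum] at h
    rw [← h]
    apply Finset.sum_congr rfl
    intro j _
    simp [hy0]
  calc (0 : ℝ) < (if tie k y0 then (1:ℝ) else 0) := by rw [if_pos ht]; norm_num
    _ ≤ ∑ y : Fin (2 * k) ⊕ Fin 5 → ℤˣ, (if tie k y then (1:ℝ) else 0) :=
        Finset.single_le_sum (f := fun y : Fin (2 * k) ⊕ Fin 5 → ℤˣ => (if tie k y then (1:ℝ) else 0))
          (fun y _ => by split_ifs <;> norm_num) (Finset.mem_univ y0)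

end Vale.Agent.Lib.P047.Low
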