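import Vale.Agent.Lib.P047.Fourier

open Finset BigOperators

/-!
P047 Low, module L5: transport of a function on a cube over any finite index type to `Fin N`.
ROUTE. N = Fintype.card ι, e = Fintype.equivFin ι, F x = G (x ∘ e); use `fc_reindex` from
Fourier.lean (see how the lemma `amplify` at the end of Fourier.lean does exactly this), then
`fc_fin`, `fc_fin_single` to unfold fc into the explicit normalised sums; card of a mapped Finset
is preserved (`Finset.card_map`), the sum over i is transported with `Equiv.sum_comp`.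
-/

namespace Vale.Agent.Lib.P047.Low

lemma to_fin {ι : Type} [Fintype ι] [DecidableEq ι] (G : (ι → ℤˣ) → ℤˣ) (d : ℕ)
    (hdeg : ∀ T : Finset ι, d < T.card → fc G T = 0) :
    ∃ (n : ℕ) (f : (Fin n → ℤˣ) → ℤˣ),
      (∀ S : Finset (Fin n), d < S.card →
        (∑ x, ((f x : ℤ) : ℝ) * ∏ i ∈ S, ((x i : ℤ) : ℝ)) / 2 ^ n = 0) ∧
      ∑ i, (∑ x, ((f x : ℤ) : ℝ) * ((x i : ℤ) : ℝ)) / 2 ^ n = ∑ i : ι, fc G {i} := by
  let eqv := Fintype.equivFin ι
  refine ⟨Fintype.card ι, fun x => G (fun t => x (eqv t)), ?_, ?_⟩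
  · intro S hS
    rw [← fc_fin, fc_reindex eqv G S]
    apply hdeg
    rwa [Finset.card_map]
  · simp only [← fc_fin_single]
    apply Fintype.sum_equiv eqv.symm
    intro i
    rw [fc_reindex eqv G {i}]
    simp

end Vale.Agent.Lib.P047.Low
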