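import Vale.Agent.Lib.P047.Low.Glue
import Vale.Agent.Lib.P047.Low.Maj
import Vale.Agent.Lib.P047.Low.Bd
import Vale.Agent.Lib.P047.Low.ToFin
import Vale.Agent.Lib.P047.DegFive
import Vale.Agent.Results.P047.DegreeFour

open Finset BigOperators

namespace Vale.Agent.Lib.P047.Low

lemma avg_add' {ι : Type} [Fintype ι] [DecidableEq ι] (A B : (ι → ℤˣ) → ℝ) :
    avg (fun y => A y + B y) = avg A + avg B := by
  unfold avg
  rw [Finset.sum_add_distrib, add_div]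

/-- odd degrees `2k+5` -/
theorem odd_case (k : ℕ) :
    ∃ (n : ℕ) (f : (Fin n → ℤˣ) → ℤˣ),
      (∀ S : Finset (Fin n), 2 * k + 5 < S.card →
        (∑ x, ((f x : ℤ) : ℝ) * ∏ i ∈ S, ((x i : ℤ) : ℝ)) / 2 ^ n = 0) ∧
      (∑ x : Fin (2 * k + 5) → ℤˣ, |∑ i, ((x i : ℤ) : ℝ)|) / 2 ^ (2 * k + 5)
        < ∑ i, (∑ x, ((f x : ℤ) : ℝ) * ((x i : ℤ) : ℝ)) / 2 ^ n := by
  obtain ⟨N, G, hG, hL⟩ := Vale.Agent.Lib.P047.exists_deg_five
  have hdeg : ∀ T : Finset ((Fin (2 * k) ⊕ Fin 5) ⊕ Fin N), 2 * k + 5 < T.card →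
      fc (glue (tie k) (mj k) G) T = 0 := by
    intro T hT
    refine deg_glue (tie k) (mj k) G (2 * k) 5 ?_ (tie_deg k) hG T hT
    simp
  obtain ⟨n, f, h1, h2⟩ := to_fin (glue (tie k) (mj k) G) (2 * k + 5) hdeg
  refine ⟨n, f, h1, ?_⟩
  rw [h2, level_one_glue, mj_abs, tie_lin, hL, ← bd_reindex]
  have hsplit : avg (fun y : Fin (2 * k) ⊕ Fin 5 → ℤˣ => |∑ a, sg (y a)|)
      = avg (fun y : Fin (2 * k) ⊕ Fin 5 → ℤˣ => if tie k y then 0 else |∑ a, sg (y a)|)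
        + avg (fun y : Fin (2 * k) ⊕ Fin 5 → ℤˣ => if tie k y then |∑ a, sg (y a)| else 0) := by
    rw [← avg_add']
    congr 1
    funext y
    by_cases h : tie k y <;> simp [h]
  rw [hsplit, tie_abs]
  have hpos := tie_pos k
  nlinarith [hpos]

/-- the majority bound fails in every degree at least four -/
theorem majority_fails (d : ℕ) (hd : 4 ≤ d) :
    ∃ (n : ℕ) (f : (Fin n → ℤˣ) → ℤˣ),
      (∀ S : Finset (Fin n), d < S.card →
        (∑ x, ((f x : ℤ) : ℝ) * ∏ i ∈ S, ((x i : ℤ) : ℝ)) / 2 ^ n = 0) ∧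
      (∑ x : Fin d → ℤˣ, |∑ i, ((x i : ℤ) : ℝ)|) / 2 ^ d
        < ∑ i, (∑ x, ((f x : ℤ) : ℝ) * ((x i : ℤ) : ℝ)) / 2 ^ n := by
  rcases Nat.lt_or_ge d 5 with h5 | h5
  · have h4 : d = 4 := by omega
    subst h4
    obtain ⟨f, hf1, hf2⟩ := Vale.Agent.Results.P047.DegreeFour.result.2
    refine ⟨7, f, hf1, ?_⟩
    rw [hf2, bd_four]
    norm_num
  · rcases Nat.even_or_odd d with he | ho
    · obtain ⟨k, hk⟩ : ∃ k, d = (2 * k + 5) + 1 := by
        obtain ⟨m, hm⟩ := he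
        exact ⟨m - 3, by omega⟩
      subst hk
      obtain ⟨n, f, h1, h2⟩ := odd_case k
      refine ⟨n, f, fun S hS => h1 S (by omega), ?_⟩
      rw [bd_succ_of_odd (2 * k + 5) ⟨k + 2, by ring⟩]
      exact h2
    · obtain ⟨k, hk⟩ : ∃ k, d = 2 * k + 5 := by
        obtain ⟨m, hm⟩ := ho
        exact ⟨m - 2, by omega⟩
      subst hk
      exact odd_case k

end Vale.Agent.Lib.P047.Low
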