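import Vale.Agent.Lib.P047.Fourier

open Finset BigOperators

/-!
P047 Low, module L1: the cube over a disjoint union of two index types.
ROUTE. avg_sumType: unfold avg; card (α ⊕ β) = card α + card β, pow_add; the sum over
`α ⊕ β → ℤˣ` is a double sum via `Equiv.sumArrowEquivProdArrow α β ℤˣ` and `Fintype.sum_prod_type`,
then `Finset.sum_mul_sum`. chi_sumType: unfold chi, `Fintype.prod_sum_type`, mem_filter.
card_sumType: S is the disjoint union of the images of the two parts (or use
`Finset.card_eq_sum_ones`, `Fintype.sum_sum_type` on indicators).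
-/

namespace Vale.Agent.Lib.P047.Low

variable {α β : Type} [Fintype α] [DecidableEq α] [Fintype β] [DecidableEq β]

/-- the left part of a set of coordinates -/
def inlPart (S : Finset (α ⊕ β)) : Finset α := Finset.univ.filter (fun a => Sum.inl a ∈ S)

/-- the right part of a set of coordinates -/
def inrPart (S : Finset (α ⊕ β)) : Finset β := Finset.univ.filter (fun b => Sum.inr b ∈ S)

lemma avg_sumType (A : (α → ℤˣ) → ℝ) (B : (β → ℤˣ) → ℝ) :
    avg (fun z : α ⊕ β → ℤˣ => A (fun a => z (Sum.inl a)) * B (fun b => z (Sum.inr b)))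
      = avg A * avg B := by
  unfold avg
  rw [Fintype.card_sum, pow_add, div_mul_div_comm]
  congr 1
  rw [Finset.sum_mul_sum, ← Fintype.sum_prod_type']
  apply Fintype.sum_equiv (Equiv.sumArrowEquivProdArrow α β ℤˣ)
  intro z
  rfl

lemma chi_sumType (S : Finset (α ⊕ β)) (z : α ⊕ β → ℤˣ) :
    chi S z = chi (inlPart S) (fun a => z (Sum.inl a)) * chi (inrPart S) (fun b => z (Sum.inr b)) := by
  unfold chi inlPart inrPart
  rw [Fintype.prod_sum_type]
  simp

lemma card_sumType (S : Finset (α ⊕ β)) : S.card = (inlPart S).card + (inrPart S).card := by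
  unfold inlPart inrPart
  rw [Finset.card_filter, Finset.card_filter, ← Fintype.sum_sum_type
    (fun i : α ⊕ β => if i ∈ S then 1 else 0)]
  simp

end Vale.Agent.Lib.P047.Low
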